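import Vale.Agent.P352Z.R.IB.Dt

/-!
# P352Z (port of P352X), row IB: `Kt` on the vectors `ϑ(g χ_s) Ω`
-/

set_option linter.all false

open MeasureTheory Filter Topology Set Metric
open scoped SchwartzMap ComplexConjugate ContDiff Real

namespace Vale.Agent.P352X.ZZ.Ib

open Vale.Agent.P352 Vale.Agent.P352.GF Vale.Agent.P352.BW Vale.Agent.P352.H246
open Vale.Agent.P352.H496 Vale.Agent.P352.H755
open UniformSpace (Completion)
open Complex (I exp)
open Vale.Agent.P352X.Ib

noncomputable section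

variable {D : Type*} [NormedAddCommGroup D] [InnerProductSpace ℂ D] {c : Ctx D} {f : Fn}
  {g : P3 → ℝ} {χ φ : ℝ → ℝ}

/-- **Cells.** -/
theorem cell [Fact c.can] (G : GRP c) (K : KD c) (T : KT c) (hg : Tst g) (hχ : Sd χ) : ∃ C : ℝ, 0 ≤ C ∧
    ∀ s, 0 < s → s ≤ 1 → ‖gen c.Sk (c.Th (pr g (dil s χ)))‖ ≤ C := by
  obtain ⟨h0, b1, b2, h1, h2⟩ := hχ
  obtain ⟨m, C, -, h⟩ := slab_th G K h1
  obtain ⟨ρ, hρ, sρ, -, iρ⟩ := Ap.ex_rho (volume : Measure R2) (closedBall_mem_nhds 0 one_pos)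
  obtain ⟨R, hR⟩ := hg.2.isCompact.isBounded.subset_closedBall 0
  have F := fam_cel hg h0 hρ
  obtain ⟨A, hA⟩ := F.bdd ((isCompact_Icc (a := (0 : ℝ)) (b := 1)).prod
    (isCompact_closedBall (0 : R2) (R + 1))) (subset_univ _) m
  set B : R2 → ℝ := (closedBall 0 (R + 1)).indicator fun _ => |C| * |A|
  have iB : Integrable B := (integrableOn_const (measure_closedBall_lt_top).ne).integrable_indicator
    measurableSet_closedBall
  have B0 : 0 ≤ B := fun y => indicator_nonneg (fun _ _ => by positivity) y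
  have key : ∀ q : P3, q.1 ∈ Icc (0 : ℝ) 1 → Dm c.Sk (thC c (sch (cel g χ ρ q))) ∧
      ‖gen c.Sk (thC c (sch (cel g χ ρ q)))‖ ≤ B q.2 := fun q hq => by
    obtain ⟨a, b⟩ := h (sch (cel g χ ρ q)) (by
      rw [Api4.tsupport_sch (F.dc (mem_univ q))]
      refine Ap.tsupp_sub (isClosed_Icc.preimage cont_be) fun z k => h2 (subset_tsupport _ fun j => k ?_)
      simp [cel, j])
    refine ⟨((T.dom _).1 a).1, ?_⟩
    by_cases k : q.2 ∈ closedBall 0 (R + 1)
    · refine ((T.split _ a).2.trans b).trans ?_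
      rw [show B q.2 = _ from indicator_of_mem k _]
      exact mul_le_mul (le_abs_self _) ((hA q ⟨hq, k⟩).trans (le_abs_self _)) (Lie.sn_nonneg _ _)
        (abs_nonneg _)
    · have : cel g χ ρ q = fun _ => 0 := funext fun z => by_contra fun j => k (by
        simp only [cel, Complex.ofReal_eq_zero, mul_eq_zero, not_or] at j
        have j1 := (norm_snd_le _).trans (mem_closedBall_zero_iff.1 (hR (subset_tsupport _ j.1.1)))
        have j2 := mem_closedBall_zero_iff.1 (sρ (subset_tsupport _ j.2))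
        have j3 := norm_sub_le (q.2 + q.1 • tx z) (q.1 • tx z)
        rw [add_sub_cancel_right, norm_smul, Real.norm_of_nonneg hq.1] at j3
        exact mem_closedBall_zero_iff.2 (j3.trans (add_le_add j1
          (mul_le_one₀ hq.2 (norm_nonneg _) j2))))
      rw [this, Ap.sch_zero, map_zero, gen_zero, norm_zero]
      exact B0 _
  refine ⟨∫ y, B y, integral_nonneg B0, fun s hs hs1 => ?_⟩
  have l0 := Real.sqrt_pos.2 hs
  have tf := test_pr hg (tst_dil h0 hs)
  have e1 : (fun z => pr g (dil s χ) (scp 1 s z)) =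
      fun z => ∫ y : R2, cel g χ ρ (√s, √s • y) (z - tv y) := funext fun z => by
    simp only [cel, al_sub, be_sub, tx_sub, al_tv, be_tv, tx_tv, sub_zero, ← smul_add,
      add_sub_cancel, integral_complex_ofReal, integral_const_mul, integral_sub_left_eq_self ρ, iρ]
    simp [pr, pl, dil, hs.ne']
  have d : Dc fun q : R2 × V => cel g χ ρ (√s, √s • q.1) (q.2 - tv q.1) := by
    have d1 : Dc fun z => pr g (dil s χ) (scp 1 s z) := Ap.cs_hom (conf_scp one_pos hs).cle.toHomeomorph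
      (conf_scp one_pos hs).cle.contDiff (Far.dc_pr hg (tst_dil h0 hs))
    have d2 := Api4.dc_comp_cle (Api4.dc_tens (Api4.dc_cx hρ) d1)
      (ContinuousLinearEquiv.equivOfInverse
        ((txL ∘L .snd ℝ R2 V - .fst ℝ R2 V).prod (.snd ℝ R2 V))
        ((txL ∘L .snd ℝ R2 V - .fst ℝ R2 V).prod (.snd ℝ R2 V)) (fun _ => by simp) fun _ => by simp)
    convert d2 using 2 with q
    simp [cel, pr, pl, dil, hs.ne', cx, ← smul_add, mul_comm]
  obtain ⟨-, i1, e2⟩ := Api4.par volume d (thC c)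
  obtain ⟨a, b⟩ := T.ugk.integral_bdd i1 (iB.comp_smul l0.ne') (.of_forall fun y => by
    have t := Far.isTest_dc (Api4.dc_slice d y)
    obtain ⟨a, b⟩ := key (√s, √s • y) ⟨l0.le, Real.sqrt_le_one.2 hs1⟩
    rw [thC_sch t, ← ut_th G (tv y) t]
    simp only [add_sub_cancel_right]
    rw [← thC_sch (Far.isTest_dc (F.dc (mem_univ _)))]
    obtain ⟨a', b'⟩ := a.comm fun t => T.ut t (tv y) (be_tv y)
    exact ⟨a', by rw [b', Ut, G.ug_norm]; exact b⟩)
  rw [← e2, ← e1, thC_sch (Ap.test_conf0 (conf_scp one_pos hs) tf)] at a b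
  have e3 := sc_th G one_pos hs tf
  rw [Complex.ofReal_one, one_smul] at e3
  rw [← e3, (a.gn.scale (Usc c.Q 1 s) s fun t => ?_).gen_eq, norm_smul, Usc,
    G.ug_norm, Real.norm_of_nonneg hs.le]
  · refine (mul_le_mul_of_nonneg_left b hs.le).trans_eq ?_
    rw [Measure.integral_comp_smul]
    simp [Real.sq_sqrt hs.le, abs_of_pos hs, hs.ne']
  · have := DFunLike.congr_fun (T.sc 1 s (s * t) one_pos hs)
    simp only [mul_div_cancel_left₀ t hs.ne'] at this
    exact (this _).symm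

end

end Vale.Agent.P352X.ZZ.Ib
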