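import Vale.Agent.P352Z.R.IB.K0

/-!
# P352Z (port of P352X), row IB: the limits of the single faces
-/

set_option linter.all false

open MeasureTheory Filter Topology Set
open scoped SchwartzMap ComplexConjugate ContDiff Real

namespace Vale.Agent.P352X.ZZ.Ib

open Vale.Agent.P352 Vale.Agent.P352.GF Vale.Agent.P352.BW Vale.Agent.P352.H246
open Vale.Agent.P352.H496 Vale.Agent.P352.H755
open UniformSpace (Completion)
open Complex (I exp)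
open Vale.Agent.P352X.Ib

noncomputable section

variable {D : Type*} [NormedAddCommGroup D] [InnerProductSpace ℂ D] {c : Ctx D}
  {g g' : P3 → ℝ} {χ φ φ' θ : ℝ → ℝ} {σ σ' : ℝ} {ell : (V → ℂ) → Completion D} {c0 : ℝ}
  {cc : (ℝ → ℝ) → (ℝ → ℝ) → ℂ} {dd : (ℝ → ℝ) → ℝ} {γ γ' : P3 → ℂ}

lemma mem_d (hg : Tst g) : MemLp (ft3 (cx (Dx (1, 0) g))) 2 m3 := mem_ft3 (tst_Dx (1, 0) hg)

variable (h : Ell c ell c0)
include h

lemma lim_t (hg : Tst g) (hχ : Tst χ) :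
    Tendsto (fun p : ℝ × ℝ => c.Th (pr g (tm (dil p.1 χ)))) LL (𝓝 0) := by
  obtain ⟨C, -, hC⟩ := th_tdil h hg hχ
  exact to0 ((ev_LL 0).mono fun p k => hC _ (k.1.trans_le k.2.1))

lemma lim_ta (hσ : σ = 1 ∨ σ = -1) (hθ : Bump θ) (hg : Tst g) :
    Tendsto (fun p => c.Th (pr g (tm (pa σ θ p)))) LL (𝓝 0) := by
  have t := sd_ch hσ hθ
  obtain ⟨C, -, hC⟩ := th_tdil h hg t.1
  refine (plat_lim (ThL c g ∘L mT) hσ hθ (C := C) fun s hs => ?_).congr'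
    ((ev_sd hσ hθ t).mono fun p k => ?_)
  · rw [ContinuousLinearMap.comp_apply, mT_S1 (t.dil hs).1, ThL_S1 hg (tst_tm (t.dil hs).1)]
    exact hC s hs
  · simp only [ContinuousLinearMap.comp_apply, mT_S1 k.1.1, ThL_S1 hg (tst_tm k.1.1)]

lemma lim_d (hg : Tst g) (hχ : Tst χ) : Tendsto (fun p : ℝ × ℝ =>
    c.Th (pr g (dil p.1 χ)) - Tht ell (ft3 (cx (Dx (1, 0) g))) (dil p.1 χ)) LL (𝓝 0) := by
  obtain ⟨C, -, hC⟩ := dt_dil h hg hχ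
  exact to0 ((ev_LL 0).mono fun p k => hC _ (k.1.trans_le k.2.1))

lemma lim_da (hσ : σ = 1 ∨ σ = -1) (hθ : Bump θ) (hg : Tst g) : Tendsto (fun p =>
    c.Th (pr g (pa σ θ p)) - Tht ell (ft3 (cx (Dx (1, 0) g))) (pa σ θ p)) LL (𝓝 0) := by
  have t := sd_ch hσ hθ
  obtain ⟨C, -, hC⟩ := dt_dil h hg t.1
  refine (plat_lim (ThL c g - TtL h (mem_d hg)) hσ hθ (C := C) fun s hs => ?_).congr'
    ((ev_sd hσ hθ t).mono fun p k => ?_)
  · rw [ContinuousLinearMap.sub_apply, ThL_S1 hg (t.dil hs).1, TtL_S1 h _ (t.dil hs).1]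
    exact hC s hs
  · simp only [ContinuousLinearMap.sub_apply, ThL_S1 hg k.1.1, TtL_S1 h _ k.1.1]

variable (t : T2 c)
include t

lemma lim_Rm (hσ : σ = 1 ∨ σ = -1) (hθ : Bump θ) (hχ : Sd χ) (hg : Tst g) (hg' : Tst g')
    (k : ∃ g0, Tst g0 ∧ (g = Dx (1, 0) g0 ∨ g' = Dx (1, 0) g0)) :
    Tendsto (fun p => Rm c g (pa σ θ p) g' (dil p.1 χ)) LL (𝓝 0) := by
  obtain ⟨g0, h0, rfl | rfl⟩ := k
  · refine squeeze_zero_norm' ((ev_sd hσ hθ hχ).mono fun p k => ?_) (by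
      simpa using tendsto_finset_sum Finset.univ fun i _ =>
        (lim_t h (tst_Dx (0, e2 i) hg') hχ.1).norm.mul (lim_ta h hσ hθ (tst_Dx (0, e2 i) h0)).norm)
    rw [← Rm_conj t hg' k.2 hg k.1, RCLike.norm_conj]
    simpa using Rm_le t hg' k.2.1 h0 k.1
  · refine squeeze_zero_norm' ((ev_sd hσ hθ hχ).mono fun p k => ?_) (by
      simpa using tendsto_finset_sum Finset.univ fun i _ =>
        (lim_ta h hσ hθ (tst_Dx (0, e2 i) hg)).norm.mul (lim_t h (tst_Dx (0, e2 i) h0) hχ.1).norm)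
    simpa using Rm_le t hg k.1.1 h0 k.2

variable [Fact c.can] (S : Schur c ell cc dd)
include S

lemma kt_pa (hσ : σ = 1 ∨ σ = -1) (hθ : Bump θ) (hγ : MemLp γ 2 m3) : ∃ C : ℝ, ∀ᶠ p in LL,
    ∀ w, Dm c.Sk w → ‖inner ℂ (Tht ell γ (pa σ θ p)) (gen c.Sk w)‖ ≤ C * ‖w‖ := by
  obtain ⟨R, -, hR⟩ := rad hθ.1
  have d := sd_ch hσ hθ
  refine ⟨2 * √(dd (ch σ θ) * ∫ k, ‖γ k‖ ^ 2 ∂m3), ?_⟩
  filter_upwards [ev_LL R, ev_sd hσ hθ d] with p a b w hw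
  have := plat_le (innerSL ℂ (gen c.Sk w) ∘L TtL h hγ) hσ hθ hR a.1 a.2.1 a.2.2.1
    (C := √(dd (ch σ θ) * ∫ k, ‖γ k‖ ^ 2 ∂m3) * ‖w‖) fun s hs => by
      have s0 := a.1.trans_le hs.1
      have e := S.nrm γ _ hγ (d.dil s0).d0
      rw [S.sdd _ _ d.d0 s0, mul_assoc, mul_comm] at e
      rw [ContinuousLinearMap.comp_apply, TtL_S1 h _ (d.dil s0).1, innerSL_apply_apply,
        ← t.kt.ugk.symm hw.gn (S.dom γ _ hγ (d.dil s0).d0).gn, mul_right_comm,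
        ← Real.sqrt_mul' _ s0.le, ← e, Real.sqrt_sq (norm_nonneg _), mul_comm]
      exact norm_inner_le_norm _ _
  rw [ContinuousLinearMap.comp_apply, TtL_S1 h _ b.1.1, innerSL_apply_apply, norm_inner_symm,
    ← mul_assoc] at this
  exact this.trans (mul_le_of_le_one_right (by positivity) (Real.sqrt_le_one.2 a.2.2.2))

lemma lim_cc (hσ : σ = 1 ∨ σ = -1) (hθ : Bump θ) (hχ : Sd χ) (hg : Tst g) (hg' : Tst g')
    (k : ∃ g0, Tst g0 ∧ (g = Dx (1, 0) g0 ∨ g' = Dx (1, 0) g0)) :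
    Tendsto (fun p => c.PF (pr g (pa σ θ p)) (pr g' (dil p.1 χ)) - inner ℂ
      (Tht ell (ft3 (cx (Dx (1, 0) g))) (pa σ θ p)) (gen c.Sk (Tht ell (ft3 (cx (Dx (1, 0) g'))) (dil p.1 χ)))) LL (𝓝 0) := by
  obtain ⟨C, hC⟩ := kt_pa h t S hσ hθ (mem_d hg)
  obtain ⟨C', -, hC'⟩ := cell t.grp t.kd t.kt hg' hχ
  have h1 : Tendsto (fun p => inner ℂ (c.Th (pr g (pa σ θ p)) - Tht ell (ft3 (cx (Dx (1, 0) g))) (pa σ θ p))
      (gen c.Sk (c.Th (pr g' (dil p.1 χ))))) LL (𝓝 0) :=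
    squeeze_zero_norm' ((ev_LL 0).mono fun p a => (norm_inner_le_norm _ _).trans
      (mul_le_mul_of_nonneg_left (hC' _ (a.1.trans_le a.2.1) a.2.2.2) (norm_nonneg _)))
      (by simpa using (lim_da h hσ hθ hg).norm.mul_const C')
  have h2 : Tendsto (fun p => inner ℂ (Tht ell (ft3 (cx (Dx (1, 0) g))) (pa σ θ p)) (gen c.Sk
      (c.Th (pr g' (dil p.1 χ)) - Tht ell (ft3 (cx (Dx (1, 0) g'))) (dil p.1 χ)))) LL (𝓝 0) :=
    squeeze_zero_norm' ((hC.and (ev_sd hσ hθ hχ)).mono fun p a => a.1 _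
      ((dm_k t hg' a.2.2).sub (S.dom _ _ (mem_d hg') a.2.2.d0)))
      (by simpa using (lim_d h hg' hχ.1).norm.const_mul C)
  have h3 := ((lim_Rm h t hσ hθ hχ hg hg' k).add h1).add h2
  rw [add_zero, add_zero] at h3
  refine h3.congr' ((ev_sd hσ hθ hχ).mono fun p a => ?_)
  simp only [Rm, gen_sub (dm_k t hg' a.2) (S.dom _ _ (mem_d hg') a.2.d0), inner_sub_left,
    inner_sub_right]
  ring

lemma cc_pa (hσ : σ = 1 ∨ σ = -1) (hθ : Bump θ) (hγ : MemLp γ 2 m3) (hγ' : MemLp γ' 2 m3) :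
    ∀ᶠ p in LL, ∀ φ, D0 φ → inner ℂ (Tht ell γ' φ) (gen c.Sk (Tht ell γ (pa σ θ p))) =
      ∫ s in p.2..p.1, ((s⁻¹ : ℝ) : ℂ) *
        inner ℂ (Tht ell γ' φ) (gen c.Sk (Tht ell γ (dil s (ch σ θ)))) := by
  obtain ⟨R, -, hR⟩ := rad hθ.1
  have d := sd_ch hσ hθ
  filter_upwards [ev_LL R, ev_sd hσ hθ d] with p a b φ hφ
  have e : ∀ ψ, Sd ψ → (innerSL ℂ (gen c.Sk (Tht ell γ' φ)) ∘L TtL h hγ) (S1 ψ) =
      inner ℂ (Tht ell γ' φ) (gen c.Sk (Tht ell γ ψ)) := fun ψ hψ => by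
    rw [ContinuousLinearMap.comp_apply, TtL_S1 h _ hψ.1, innerSL_apply_apply,
      ← t.kt.ugk.symm (S.dom _ _ hγ' hφ).gn (S.dom γ _ hγ hψ.d0).gn]
  rw [← e _ b.1, plat _ hσ hθ hR a.1 a.2.1 a.2.2.1]
  exact intervalIntegral.integral_congr fun s hs => by
    simp only [e _ (d.dil ((lt_min a.1 (a.1.trans_le a.2.1)).trans_le hs.1)), smul_eq_mul]

/-- the plateau on the left -/
theorem faceL (hσ : σ = 1 ∨ σ = -1) (hθ : Bump θ) (hχ : Sd χ) (hg : Tst g) (hg' : Tst g')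
    (k : ∃ g0, Tst g0 ∧ (g = Dx (1, 0) g0 ∨ g' = Dx (1, 0) g0)) :
    Tendsto (fun p => c.PF (pr g (pa σ θ p)) (pr g' (dil p.1 χ)) - (∫ s in p.2..p.1,
      ((s⁻¹ : ℝ) : ℂ) * cc (dil (s / p.1) (ch σ θ)) χ) * II (Dx (1, 0) g) (Dx (1, 0) g')) LL (𝓝 0) := by
  have d := sd_ch hσ hθ
  refine (lim_cc h t S hσ hθ hχ hg hg' k).congr' ?_
  filter_upwards [cc_pa h t S hσ hθ (mem_d hg) (mem_d hg'), ev_sd hσ hθ hχ, ev_LL 0]
    with p a b e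
  have e0 := e.1.trans_le e.2.1
  rw [← sym_inner t.kt.ugk (S.dom _ _ (mem_d hg') b.2.d0) (S.dom _ _ (mem_d hg) b.1.d0),
    a _ b.2.d0, ← intervalIntegral.integral_mul_const, ← iconj]
  congr 1
  refine intervalIntegral.integral_congr fun s hs => ?_
  have s0 := (lt_min e.1 e0).trans_le hs.1
  simp only [map_mul, Complex.conj_ofReal]
  rw [sym_inner t.kt.ugk (S.dom _ _ (mem_d hg') b.2.d0) (S.dom _ _ (mem_d hg) (d.dil s0).d0),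
    S.form _ _ _ _ (mem_d hg) (d.dil s0).d0 (mem_d hg') b.2.d0,
    ← S.scc _ _ _ (d.dil (div_pos s0 e0)).d0 hχ.d0 e0, dil_dil, mul_div_cancel₀ _ e0.ne', mul_assoc,
    II]

/-- the plateau on the right -/
theorem faceR (hσ : σ = 1 ∨ σ = -1) (hθ : Bump θ) (hχ : Sd χ) (hg : Tst g) (hg' : Tst g')
    (k : ∃ g0, Tst g0 ∧ (g = Dx (1, 0) g0 ∨ g' = Dx (1, 0) g0)) :
    Tendsto (fun p => c.PF (pr g' (dil p.1 χ)) (pr g (pa σ θ p)) - (∫ s in p.2..p.1,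
      ((s⁻¹ : ℝ) : ℂ) * cc (dil (p.1 / s) χ) (ch σ θ)) * II (Dx (1, 0) g') (Dx (1, 0) g)) LL (𝓝 0) := by
  have d := sd_ch hσ hθ
  have := (Complex.continuous_conj.tendsto' _ _ (map_zero _)).comp (lim_cc h t S hσ hθ hχ hg hg' k)
  refine this.congr' ?_
  filter_upwards [cc_pa h t S hσ hθ (mem_d hg) (mem_d hg'), ev_sd hσ hθ hχ, ev_LL 0]
    with p a b e
  have e0 := e.1.trans_le e.2.1
  rw [Function.comp, map_sub, PF_conj t hg b.1 hg' b.2,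
    sym_inner t.kt.ugk (S.dom _ _ (mem_d hg) b.1.d0) (S.dom _ _ (mem_d hg') b.2.d0),
    a _ b.2.d0, ← intervalIntegral.integral_mul_const]
  congr 1
  refine intervalIntegral.integral_congr fun s hs => ?_
  have s0 := (lt_min e.1 e0).trans_le hs.1
  rw [S.form _ _ _ _ (mem_d hg') b.2.d0 (mem_d hg) (d.dil s0).d0,
    ← S.scc _ _ _ (hχ.dil (div_pos e0 s0)).d0 d.d0 s0, dil_dil, mul_div_cancel₀ _ s0.ne', mul_assoc,
    II]

end

end Vale.Agent.P352X.ZZ.Ib
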