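import Vale.Agent.P352Z.R.IB.Cell

/-!
# P352Z (port of P352X), row IB: the part `K0` of the plane form
-/

set_option linter.all false

open MeasureTheory Filter Topology Set
open scoped SchwartzMap ComplexConjugate ContDiff Real

namespace Vale.Agent.P352X.ZZ.Ib

open Vale.Agent.P352 Vale.Agent.P352.GF Vale.Agent.P352.BW Vale.Agent.P352.H246
open Vale.Agent.P352.H496 Vale.Agent.P352.H755
open UniformSpace (Completion)
open Complex (I exp)
open Vale.Agent.P352X.Ib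

noncomputable section

variable {D : Type*} [NormedAddCommGroup D] [InnerProductSpace ℂ D] {c : Ctx D} {f u v : Fn}
  {g g' : P3 → ℝ} {χ φ φ' : ℝ → ℝ}

lemma th_Mc (i : Fin 2) (hf : IsTest f) : c.Th (Mc i f) = c.Th (Xc i (dv va f)) + c.Th (Nc i f) :=
  th_add (test_Xc i (Ap.test_dv va hf)) (test_Nc i hf)

lemma gn_P (E : GEN c) (hf : IsTest f) : Gn (Pa c.Q) (c.Th f) (I • c.Th (dv va f)) := E.uth va f hf

lemma mp (E : GEN c) (i : Fin 2) (hf : IsTest f) :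
    gen (Mi c.Q i) (c.Th f) = gen (Pa c.Q) (c.Th (Xc i f)) + I • c.Th (Nc i f) := by
  rw [(E.mith i f hf).gen_eq, (gn_P E (test_Xc i hf)).gen_eq, th_Mc i hf, da_Xc i hf, smul_add]

/-- `K0` on derivatives along `al` -/
theorem gn_K0 (G : GRP c) (E : GEN c) (T : KT c) (hf : IsTest f) :
    Gn c.S0 (c.Th (dv va f)) (∑ i, gen (Mi c.Q i) (c.Th (Mc i f))) := by
  have t := Ap.test_dv va hf
  have m := fun i {f} (hf : IsTest f) => E.mith i f hf
  refine T.k0 _ _ (fun i => ⟨(m i t).dm, (m i t).gen_eq ▸ (m i (Ap.test_Mc i t)).dm.smul I⟩) ?_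
    (Gn.sum _ fun i _ => ?_)
  · simp only [inner_sum, fun i => (m i (Ap.test_Mc i hf)).gen_eq, inner_smul_right,
      fun i => th_perp G (Ap.test_Mc i (Ap.test_Mc i hf)), mul_zero, Finset.sum_const_zero]
  · rw [(m i (Ap.test_Mc i hf)).gen_eq, (m i t).gen_eq, ((m i (Ap.test_Mc i t)).smul I).gen_eq,
      ← da_Mc i hf, ← da_Mc i (Ap.test_Mc i hf)]
    exact (gn_P E (Ap.test_Mc i (Ap.test_Mc i hf))).smul I

lemma PF_eq (hu : bar u = u) (v : Fn) : c.PF u v = inner ℂ (c.Th u) (gen c.SK (c.Th v)) -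
    ∑ i, (inner ℂ (c.Th (Xc i u)) (gen (Mi c.Q i) (c.Th v)) +
      inner ℂ (c.Th u) (gen (Mi c.Q i) (c.Th (Xc i v)))) +
    ∑ i, inner ℂ (c.Th (Xc i u)) (gen (Pa c.Q) (c.Th (Xc i v))) := by
  simp only [Ctx.PF, Ap.bar_rmul, hu]
  rfl

/-- **The part `K0` of the plane form.** -/
theorem pf_K0 (G : GRP c) (E : GEN c) (T : KT c) (hu : IsTest u) (hb : bar u = u) (hf : IsTest f)
    (hd : Dm c.SK (c.Th (dv va f))) : c.PF u (dv va f) - inner ℂ (c.Th u) (gen c.Sk (c.Th (dv va f))) =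
      -I * ∑ i, inner ℂ (c.Th (Nc i u)) (c.Th (Nc i f)) := by
  have t := Ap.test_dv va hf
  have m := fun i {f} (hf : IsTest f) => (E.mith i f hf).dm
  rw [PF_eq hb, (T.split _ hd).1, (gn_K0 G E T hf).gen_eq, inner_add_right, inner_sum,
    Finset.mul_sum]
  have e : ∀ i, inner ℂ (c.Th u) (gen (Mi c.Q i) (c.Th (Mc i f))) -
      (inner ℂ (c.Th (Xc i u)) (gen (Mi c.Q i) (c.Th (dv va f))) +
        inner ℂ (c.Th u) (gen (Mi c.Q i) (c.Th (Xc i (dv va f))))) +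
      inner ℂ (c.Th (Xc i u)) (gen (Pa c.Q) (c.Th (Xc i (dv va f)))) =
      -I * inner ℂ (c.Th (Nc i u)) (c.Th (Nc i f)) := fun i => by
    rw [th_Mc i hf, gen_add (m i (test_Xc i t)) (m i (test_Nc i hf)), inner_add_right,
      (G.ugM i).symm (m i hu).gn (m i (test_Nc i hf)).gn, mp E i hu, mp E i t, ← da_Nc i hf,
      inner_add_right, inner_add_left, G.ugPa.symm (gn_P E (test_Xc i hu)).dm.gn
        (gn_P E (test_Nc i hf)), inner_smul_left, Complex.conj_I]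
    ring
  simp only [← e, Finset.sum_add_distrib, Finset.sum_sub_distrib]
  ring

theorem pf_symm (G : GRP c) (E : GEN c) (hu : IsTest u) (hb : bar u = u) (hv : IsTest v)
    (hb' : bar v = v) (du : Dm c.SK (c.Th u)) (dw : Dm c.SK (c.Th v)) :
    conj (c.PF u v) = c.PF v u := by
  have m := fun i {f} (hf : IsTest f) => (E.mith i f hf).dm
  simp only [PF_eq hb, PF_eq hb', map_add, map_sub, map_sum, sym_inner c.ugK du dw,
    fun i => sym_inner (G.ugM i) (m i (test_Xc i hu)) (m i hv),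
    fun i => sym_inner (G.ugM i) (m i hu) (m i (test_Xc i hv)),
    fun i => sym_inner G.ugPa (gn_P E (test_Xc i hu)).dm (gn_P E (test_Xc i hv)).dm]
  simp only [add_comm (inner ℂ (c.Th v) _)]

/-! ### products -/

variable (c) in
/-- the remainder -/
def Rm (g : P3 → ℝ) (φ : ℝ → ℝ) (g' : P3 → ℝ) (φ' : ℝ → ℝ) : ℂ :=
  c.PF (pr g φ) (pr g' φ') - inner ℂ (c.Th (pr g φ)) (gen c.Sk (c.Th (pr g' φ')))

variable (t : T2 c)
include t

lemma dm_k (hg : Tst g) (hφ : Sd φ) : Dm c.Sk (c.Th (pr g φ)) :=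
  ((t.kt.dom _).1 (dm_pr t.grp t.kd hg hφ)).1

lemma PF_conj (hg : Tst g) (hφ : Sd φ) (hg' : Tst g') (hφ' : Sd φ') :
    conj (c.PF (pr g φ) (pr g' φ')) = c.PF (pr g' φ') (pr g φ) :=
  pf_symm t.grp t.gen (test_pr hg hφ.1) (Far.bar_pr _ _) (test_pr hg' hφ'.1) (Far.bar_pr _ _)
    (dm_pr t.grp t.kd hg hφ) (dm_pr t.grp t.kd hg' hφ')

lemma Rm_conj (hg : Tst g) (hφ : Sd φ) (hg' : Tst g') (hφ' : Sd φ') :
    conj (Rm c g φ g' φ') = Rm c g' φ' g φ := by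
  rw [Rm, map_sub, PF_conj t hg hφ hg' hφ', sym_inner t.kt.ugk (dm_k t hg hφ) (dm_k t hg' hφ'), Rm]

theorem Rm_le (hg : Tst g) (hφ : Tst φ) (hg' : Tst g') (hφ' : Sd φ') :
    ‖Rm c g φ (Dx (1, 0) g') φ'‖ ≤
      ∑ i, ‖c.Th (pr (Dx (0, e2 i) g) (tm φ))‖ * ‖c.Th (pr (Dx (0, e2 i) g') (tm φ'))‖ := by
  have d := dm_pr t.grp t.kd (tst_Dx (1, 0) hg') hφ'
  rw [Rm]
  rw [← da_pr hg' hφ'.1] at d ⊢
  rw [pf_K0 t.grp t.gen t.kt (test_pr hg hφ) (Far.bar_pr _ _) (test_pr hg' hφ'.1) d, norm_mul,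
    norm_neg, Complex.norm_I, one_mul]
  simp only [fun i => Nc_pr i hg hφ, fun i => Nc_pr i hg' hφ'.1]
  exact (norm_sum_le _ _).trans (Finset.sum_le_sum fun i _ => norm_inner_le_norm _ _)

end

end Vale.Agent.P352X.ZZ.Ib
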