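import Vale.Agent.P352X.R.IB
import Vale.Agent.P352X.R.BAS
import Vale.Agent.P352Z.R.D1.ThA
import Vale.Agent.P352Z.Api1C
import Vale.Agent.P352Z.R.Ev

/-!
# P352Z: the leg as a continuous linear map, covariance, slabs
-/

set_option linter.all false

open MeasureTheory Filter Topology Set Metric
open scoped SchwartzMap ComplexConjugate ContDiff Real

namespace Vale.Agent.P352X.ZZ.Ib

open Vale.Agent.P352 Vale.Agent.P352.GF Vale.Agent.P352.BW Vale.Agent.P352.H246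
open Vale.Agent.P352.H496 Vale.Agent.P352.H755
open UniformSpace (Completion)
open Complex (I exp)
open Vale.Agent.P352X.Ib

noncomputable section

variable {D : Type*} [NormedAddCommGroup D] [InnerProductSpace ℂ D] {c : Ctx D} {f : Fn}
  {g : P3 → ℝ} {χ φ : ℝ → ℝ}

variable (c) in
/-- `f ↦ ϑ(f) Ω` -/
def thC : Sch →L[ℂ] Completion D := Completion.toComplL ∘L Ev.thL c c.Q.vac

lemma thC_apply (f : Sch) : thC c f = c.Th (ev f) :=
  congrArg ((↑) : D → Completion D) (Ev.thL_apply c _ f)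

lemma thC_sch {f : Fn} (hf : IsTest f) : thC c (sch f) = c.Th f := by
  rw [thC_apply, Ap.ev_sch hf]

lemma th_add {f g : Fn} (hf : IsTest f) (hg : IsTest g) :
    c.Th (fun z => f z + g z) = c.Th f + c.Th g := Ev.Th_add c hf hg

lemma th_smul (a : ℂ) {f : Fn} (hf : IsTest f) : c.Th (fun z => a * f z) = a • c.Th f :=
  Ev.Th_smul c a hf

variable (c) in
/-- `φ ↦ ϑ(g φ) Ω` -/
def ThL (g : P3 → ℝ) : 𝓢(ℝ, ℂ) →L[ℂ] Completion D := thC c ∘L Api4.tenE plE (sch (cx g))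

lemma ThL_S1 {g : P3 → ℝ} {φ : ℝ → ℝ} (hg : Tst g) (hφ : Tst φ) :
    ThL c g (S1 φ) = c.Th (pr g φ) := by
  rw [pr_sch hg hφ]
  exact thC_apply _

lemma wf_smul (G : GRP c) (a : ℝ) (h : V) (hf : IsTest f) (v : D) :
    c.Wf (a • h) f v = (a : ℂ) • c.Wf h f v := by
  have h0 := G.wlin (-1) h h f v hf
  have h1 := G.wlin a 0 h f v hf
  rw [neg_one_smul, add_neg_cancel] at h0
  rw [zero_add] at h1
  rw [h1, h0]
  simp

lemma ut_th (G : GRP c) (y : V) (hf : IsTest f) : Ut c.Q y (c.Th fun x => f (x + y)) = c.Th f := by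
  have := G.th1 GF.one y va f c.Q.vac H496.isLor_one hf
  simp only [sim_ut, add_zero] at this
  rw [Ctx.Th, Ut, G.coe _ _ _ _ one_pos H496.isLor_one, Ctx.Thf, this,
    c.Q.U_vac _ _ _ one_pos H496.isLor_one]
  rfl

lemma sc_th [Fact c.can] (G : GRP c) {r s : ℝ} (hr : 0 < r) (hs : 0 < s) (hf : IsTest f) :
    Usc c.Q r s (c.Th fun x => f (scp r s x)) = (r : ℂ) • c.Th f := by
  have p := Real.sqrt_pos.2 (mul_pos hr hs)
  have l := (G.lsc r s hr hs).1
  have := G.th _ _ 0 va f c.Q.vac p l hf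
  simp only [(G.lsc r s hr hs).2] at this
  rw [Ctx.Th, Usc, G.coe _ _ _ _ p l, Ctx.Thf, this, c.Q.U_vac _ _ _ p l,
    show sim 1 (bst va vb (√(r / s) - 1) (√(s / r) - 1)) 0 va = _ from Br.scL_va r s,
    wf_smul G _ _ hf, smul_smul, ← Complex.ofReal_mul, Br.sqrt_sc hr hs, Completion.coe_smul]
  rfl

lemma th_perp (G : GRP c) (hf : IsTest f) : inner ℂ c.Om (c.Th f) = 0 := Ev.perp_Th G hf

/-- the generator on `ϑ(f) Ω` from the generator on the three terms -/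
lemma gn_th (G : GRP c) {W : ℝ → Completion D →L[ℂ] Completion D} (F : Sch)
    (h : ∀ k y, Dm W (c.Tv (hk va k (ev (Ev.ld y F))))) : Gn W (c.Th (ev F))
      (gen W (c.Tv (hk va va (ev (Ev.ld vb F)))) + gen W (c.Tv (hk va vb (ev (Ev.ld va F)))) -
        ∑ i, gen W (c.Tv (hk va (ex i) (ev (Ev.ld (ex i) F))))) := by
  have k := ((h va vb).gn.add (h vb va).gn).sub
    (Gn.sum Finset.univ fun i _ => (h (ex i) (ex i)).gn)
  rw [Ev.Th_null G ⟨F, rfl⟩]
  simpa only [Ev.ev_ld] using k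

/-- `K` on `ϑ(f) Ω` for `f` supported in a slab -/
theorem slab_th (G : GRP c) (K : KD c) {b1 b2 : ℝ} (hb : b2 < 0 ∨ 0 < b1) :
    ∃ (m : ℕ) (C : ℝ), 0 ≤ C ∧ ∀ f : Sch, tsupport f ⊆ {z | b1 ≤ be z ∧ be z ≤ b2} →
      Dm c.SK (thC c f) ∧ ‖gen c.SK (thC c f)‖ ≤ C * sn m f := by
  obtain ⟨m, C, h⟩ := K.slab b1 b2 hb
  choose N A A0 hA using fun y : V => Ev.sn_clm (Ev.ld y) m
  set M := N vb + N va + ∑ i, N (ex i)
  have q : ∀ k y, N y ≤ M → ∀ f : Sch, tsupport f ⊆ {z | b1 ≤ be z ∧ be z ≤ b2} →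
      ‖gen c.SK (c.Tv (hk va k (ev (Ev.ld y f))))‖ ≤ |C| * ‖va‖ * ‖k‖ * A y * sn M f :=
    fun k y hy f hf => by
      refine (h va k _ ((Ev.tsupport_ld y f).trans hf)).2.2.1.trans ?_
      rw [mul_assoc _ (A y)]
      have := A0 y
      gcongr
      exacts [Lie.sn_nonneg _ _, le_abs_self C,
        (hA y f).trans (mul_le_mul_of_nonneg_left (Lie.sn_mono hy f) this)]
  refine ⟨M, |C| * ‖va‖ * ‖va‖ * A vb + |C| * ‖va‖ * ‖vb‖ * A va +
    ∑ i, |C| * ‖va‖ * ‖ex i‖ * A (ex i), add_nonneg (add_nonneg (by have := A0 vb; positivity)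
      (by have := A0 va; positivity)) (Finset.sum_nonneg fun i _ => by
        have := A0 (ex i); positivity), fun f hf => ?_⟩
  have k := gn_th G f fun k y => (h va k _ ((Ev.tsupport_ld y f).trans hf)).1
  rw [thC_apply, k.gen_eq, add_mul, add_mul, Finset.sum_mul]
  refine ⟨k.dm, (norm_sub_le _ _).trans (add_le_add ((norm_add_le _ _).trans (add_le_add
    (q _ _ (by omega) f hf) (q _ _ (by omega) f hf))) ((norm_sum_le _ _).trans
    (Finset.sum_le_sum fun i _ => q _ _ ?_ f hf)))⟩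
  exact (Finset.single_le_sum (f := fun i => N (ex i)) (fun _ _ => Nat.zero_le _)
    (Finset.mem_univ i)).trans (Nat.le_add_left _ _)

lemma dm_pr (G : GRP c) (K : KD c) (hg : Tst g) (hφ : Sd φ) : Dm c.SK (c.Th (pr g φ)) := by
  obtain ⟨h0, b1, b2, h1, h2⟩ := hφ
  obtain ⟨m, C, -, h⟩ := slab_th G K h1
  rw [← thC_sch (test_pr hg h0)]
  refine (h _ ?_).1
  rw [Ap.tsupport_sch (test_pr hg h0)]
  exact fun z hz => h2 (Far.tsupport_pr g φ hz).2

end

end Vale.Agent.P352X.ZZ.Ib
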